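import Vale.Agent.P293.Stable

namespace Vale.Agent.Results.P295.Counterexample

/-- `f` is a coordinate of `ℂ[x₁, …, xₙ]`: an automorphism sends it to one of the variables. -/
def IsCoordinate {n : ℕ} (f : MvPolynomial (Fin n) ℂ) : Prop :=
  ∃ (σ : MvPolynomial (Fin n) ℂ ≃ₐ[ℂ] MvPolynomial (Fin n) ℂ) (i : Fin n), σ f = MvPolynomial.X i

/-- `f` becomes a coordinate after adjoining `m ≥ 1` new variables. -/
def IsStableCoordinate {n : ℕ} (f : MvPolynomial (Fin n) ℂ) : Prop :=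
  ∃ m : ℕ, 1 ≤ m ∧ IsCoordinate (MvPolynomial.rename (Fin.castAdd m) f)

open Polynomial in
lemma cancel {B B' : Type} [CommRing B] [Algebra ℂ B] [CommRing B'] [Algebra ℂ B']
    (e : B[X] ≃ₐ[ℂ] B'[X]) (h : e X = X) : Nonempty (B ≃ₐ[ℂ] B') := by
  have key : ∀ {B B' : Type} [CommRing B] [Algebra ℂ B] [CommRing B'] [Algebra ℂ B']
      (e : B[X] ≃ₐ[ℂ] B'[X]), e X = X → ∀ b,
      aeval (R := B) (0 : B) (e.symm (C (aeval (R := B') (0 : B') (e (C b))))) = b := by
    intro B B' _ _ _ _ e h b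
    have h1 := X_mul_divX_add (e (C b))
    have h2 := congrArg (fun q => aeval (R := B) (0 : B) (e.symm q)) h1
    simp only [map_add, map_mul, ← h, AlgEquiv.symm_apply_apply] at h2
    simpa [coeff_zero_eq_eval_zero] using h2
  exact ⟨AlgEquiv.ofAlgHom
    ((((aeval (R := B') (0 : B')).restrictScalars ℂ).comp e.toAlgHom).comp CAlgHom)
    ((((aeval (R := B) (0 : B)).restrictScalars ℂ).comp e.symm.toAlgHom).comp CAlgHom)
    (AlgHom.ext fun b => key e.symm (by rw [← h]; simp) b) (AlgHom.ext fun b => key e h b)⟩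

theorem result : ∃ (n : ℕ) (f : MvPolynomial (Fin n) ℂ), 1 ≤ n ∧
    IsStableCoordinate f ∧ ¬ IsCoordinate f := by
  obtain ⟨n, hn, B, _, _, ⟨e⟩, h⟩ := Vale.Agent.P293.counter
  refine ⟨n + 1, e Polynomial.X, by omega, ⟨1, le_rfl, ?_⟩, ?_⟩
  · let l : MvPolynomial (Fin (n + 1 + 1)) ℂ ≃ₐ[ℂ] Polynomial (MvPolynomial (Fin (n + 1)) ℂ) :=
      (MvPolynomial.renameEquiv ℂ finSuccEquivLast).trans (MvPolynomial.optionEquivLeft ℂ _)
    have hl : ∀ f, l (MvPolynomial.rename (Fin.castAdd 1) f) = Polynomial.C f := by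
      intro f
      have : l.toAlgHom.comp (MvPolynomial.rename (Fin.castAdd 1)) = Polynomial.CAlgHom := by
        refine MvPolynomial.algHom_ext fun i => ?_
        have : finSuccEquivLast (Fin.castAdd 1 i) = some i := finSuccEquivLast_castSucc i
        simp [l, this]
      exact DFunLike.congr_fun this f
    refine ⟨l.trans ((Polynomial.mapAlgEquiv e.symm).trans
      (((Polynomial.Bivariate.swap (R := B)).restrictScalars ℂ).trans
        ((Polynomial.mapAlgEquiv e).trans l.symm))), Fin.last _, ?_⟩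
    simp only [AlgEquiv.trans_apply, hl]
    rw [AlgEquiv.symm_apply_eq]
    simp [l, Polynomial.Bivariate.swap_X]
  · rintro ⟨σ, i, hσ⟩
    let l : MvPolynomial (Fin (n + 1)) ℂ ≃ₐ[ℂ] Polynomial (MvPolynomial (Fin n) ℂ) :=
      (MvPolynomial.renameEquiv ℂ (finSuccEquiv' i)).trans (MvPolynomial.optionEquivLeft ℂ _)
    exact h.false (cancel (e.trans (σ.trans l)) (by simp [hσ, l, finSuccEquiv'_at])).some

end Vale.Agent.Results.P295.Counterexample
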